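/-
helper9, S0170 team build, module PLAN-b: reshaping one tracked body about a rational centre by a
positive diagonal matrix of determinant one, as a chain of 8 shear `Move`s inside a cube, while all
other tracked bodies stay outside the (enlarged) cube.

`diag(r, 1/r) = L(-1/r) U(r-1) L(1) U(1/r-1)` in the coordinate planes (0,1) and (1,2).
-/
import Mathlib
import Crest.Prelude.Def_BoxFlow
import Crest.Agent.Helper25.BoxPlanDefs

set_option autoImplicit false

namespace Crest.Agent.Helper9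

open Crest.Agent.Helper11

/-- A shear `y ↦ y + κ (y_l - π_l) e_j` about a centre. -/
structure Shear where
  j : Fin 3
  l : Fin 3
  hjl : j ≠ l
  κ : ℚ

/-- The map of a shear about the centre `π`. -/
def Shear.map (π : Fin 3 → ℚ) (s : Shear) (y : E3) : E3 :=
  y + ((s.κ : ℝ) * (y s.l - (π s.l : ℝ))) • Pi.single s.j (1 : ℝ)

/-- The composite of a list of shears (head applied first). -/
def shearComp (π : Fin 3 → ℚ) : List Shear → E3 → E3
  | [], y => y
  | s :: ss, y => shearComp π ss (s.map π y)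

/-- The amplification factor of a list of shears. -/
def shearAmp : List Shear → ℚ
  | [] => 1
  | s :: ss => (1 + |s.κ|) * shearAmp ss

theorem one_le_shearAmp (ss : List Shear) : 1 ≤ shearAmp ss := by
  induction ss with
  | nil => simp [shearAmp]
  | cons s ss ih =>
    simp only [shearAmp]
    have : (0 : ℚ) ≤ |s.κ| := abs_nonneg _
    nlinarith

theorem shearComp_append (π : Fin 3 → ℚ) (l₁ l₂ : List Shear) (y : E3) :
    shearComp π (l₁ ++ l₂) y = shearComp π l₂ (shearComp π l₁ y) := by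
  induction l₁ generalizing y with
  | nil => rfl
  | cons s ss ih => simp [shearComp, ih]

theorem shearAmp_append (l₁ l₂ : List Shear) :
    shearAmp (l₁ ++ l₂) = shearAmp l₁ * shearAmp l₂ := by
  induction l₁ with
  | nil => simp [shearAmp]
  | cons s ss ih => simp [shearAmp, ih, mul_assoc]

/-- The `Move` of a shear with cut-off cube of half-width `ρ` about `π` and margin `δ`. -/
def Shear.toMove (π : Fin 3 → ℚ) (ρ δ : ℚ) (hρ : 0 < ρ) (hδ : 0 < δ) (s : Shear) : Move where
  j := s.j
  l := s.l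
  hjl := s.hjl
  α := 0
  κ := s.κ
  c := π s.l
  lo := fun m => π m - ρ
  hi := fun m => π m + ρ
  δ := δ
  hlohi := fun m => by linarith
  hδ := hδ
  hkind := Or.inr rfl

theorem Shear.toMove_map (π : Fin 3 → ℚ) (ρ δ : ℚ) (hρ : 0 < ρ) (hδ : 0 < δ) (s : Shear) (y : E3) :
    (s.toMove π ρ δ hρ hδ).map y = s.map π y := by
  simp [Move.map, Shear.map, Shear.toMove]

/-- A shear maps the closed cube of half-width `t` about `π` into the cube of half-width
`(1 + |κ|) t`. -/
theorem Shear.map_cube (π : Fin 3 → ℚ) (s : Shear) (y : E3) (t : ℝ)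
    (hy : ∀ m, |y m - (π m : ℝ)| ≤ t) (m : Fin 3) :
    |s.map π y m - (π m : ℝ)| ≤ (1 + |(s.κ : ℝ)|) * t := by
  have ht : 0 ≤ t := le_trans (abs_nonneg _) (hy 0)
  have hκ : 0 ≤ |(s.κ : ℝ)| := abs_nonneg _
  simp only [Shear.map, Pi.add_apply, Pi.smul_apply, smul_eq_mul]
  by_cases hm : m = s.j
  · subst hm
    simp only [Pi.single_eq_same, mul_one]
    calc |y s.j + (s.κ : ℝ) * (y s.l - (π s.l : ℝ)) - (π s.j : ℝ)|
        = |(y s.j - (π s.j : ℝ)) + (s.κ : ℝ) * (y s.l - (π s.l : ℝ))| := by ring_nf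
      _ ≤ |y s.j - (π s.j : ℝ)| + |(s.κ : ℝ) * (y s.l - (π s.l : ℝ))| := abs_add_le _ _
      _ = |y s.j - (π s.j : ℝ)| + |(s.κ : ℝ)| * |y s.l - (π s.l : ℝ)| := by rw [abs_mul]
      _ ≤ t + |(s.κ : ℝ)| * t := by
          have h1 := hy s.j
          have h2 := hy s.l
          have := mul_le_mul_of_nonneg_left h2 hκ
          linarith
      _ = (1 + |(s.κ : ℝ)|) * t := by ring
  · simp only [Pi.single_eq_of_ne hm, mul_zero, add_zero]
    have h1 := hy m
    nlinarith [mul_nonneg hκ ht]

theorem reach_trans {n : ℕ} {O : Fin n → Set E3} {P Q R : Fin n → E3 → E3}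
    (h₁ : Reach O P Q) (h₂ : Reach O Q R) : Reach O P R := by
  induction h₁ with
  | refl P => exact h₂
  | step M P Q' R' h _ ih => exact Reach.step M P Q' _ h (ih h₂)

/-- A chain of shears about `π` applied to the body `i₀`, which lies in the cube of half-width
`t₀` about `π`, while the other bodies lie outside the cube of half-width `ρ + δ`. -/
theorem reach_shears {n : ℕ} (O : Fin n → Set E3) (i₀ : Fin n) (π : Fin 3 → ℚ) (ρ δ : ℚ)
    (hρ : 0 < ρ) (hδ : 0 < δ) (ss : List Shear) :
    ∀ (P : Fin n → E3 → E3) (t₀ : ℚ), 0 ≤ t₀ → shearAmp ss * t₀ < ρ →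
      (∀ x ∈ O i₀, ∀ m, |P i₀ x m - (π m : ℝ)| ≤ t₀) →
      (∀ i, i ≠ i₀ → ∀ x ∈ O i,
        ∃ m, P i x m < (π m : ℝ) - ρ - δ ∨ (π m : ℝ) + ρ + δ < P i x m) →
      Reach O P (Function.update P i₀ (fun x => shearComp π ss (P i₀ x))) := by
  induction ss with
  | nil =>
    intro P t₀ _ _ _ _
    have : Function.update P i₀ (fun x => shearComp π [] (P i₀ x)) = P := by
      simp [shearComp]
    rw [this]
    exact Reach.refl P
  | cons s ss ih =>
    intro P t₀ ht₀ hamp hin hout
    have hκ : (0 : ℚ) ≤ |s.κ| := abs_nonneg _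
    have h1 : 1 ≤ shearAmp ss := one_le_shearAmp ss
    have hamp' : shearAmp ss * ((1 + |s.κ|) * t₀) < ρ := by
      have : shearAmp ss * ((1 + |s.κ|) * t₀) = shearAmp (s :: ss) * t₀ := by
        simp only [shearAmp]; ring
      rw [this]; exact hamp
    have ht₁ : 0 ≤ (1 + |s.κ|) * t₀ := by positivity
    have hlt1 : (1 + |s.κ|) * t₀ < ρ := by nlinarith
    have hlt0 : t₀ < ρ := by nlinarith
    set Q : Fin n → E3 → E3 := Function.update P i₀ (fun x => s.map π (P i₀ x)) with hQ
    have hQin : ∀ x ∈ O i₀, ∀ m, |Q i₀ x m - (π m : ℝ)| ≤ ((1 + |s.κ|) * t₀ : ℚ) := by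
      intro x hx m
      have := Shear.map_cube π s (P i₀ x) (t₀ : ℝ) (hin x hx) m
      simp only [hQ, Function.update_self]
      push_cast
      exact this
    have hQout : ∀ i, i ≠ i₀ → ∀ x ∈ O i,
        ∃ m, Q i x m < (π m : ℝ) - ρ - δ ∨ (π m : ℝ) + ρ + δ < Q i x m := by
      intro i hi x hx
      simp only [hQ, Function.update_of_ne hi]
      exact hout i hi x hx
    have hrest := ih Q ((1 + |s.κ|) * t₀) ht₁ hamp' hQin hQout
    have hfin : Function.update Q i₀ (fun x => shearComp π ss (Q i₀ x)) =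
        Function.update P i₀ (fun x => shearComp π (s :: ss) (P i₀ x)) := by
      simp [hQ, shearComp]
    rw [hfin] at hrest
    refine Reach.step (s.toMove π ρ δ hρ hδ) P Q _ ?_ hrest
    intro i x hx
    by_cases hi : i = i₀
    · subst hi
      left
      refine ⟨?_, ?_, ?_⟩
      · intro m
        have := hin x hx m
        have hlt : (t₀ : ℝ) < ρ := by exact_mod_cast hlt0
        rw [abs_le] at this
        simp only [Shear.toMove]
        push_cast
        constructor <;> linarith [this.1, this.2]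
      · intro m
        rw [Shear.toMove_map]
        have := hQin x hx m
        simp only [hQ, Function.update_self] at this
        have hlt : (((1 + |s.κ|) * t₀ : ℚ) : ℝ) < ρ := by exact_mod_cast hlt1
        rw [abs_le] at this
        simp only [Shear.toMove]
        push_cast
        constructor <;> linarith [this.1, this.2]
      · rw [Shear.toMove_map]
        simp [hQ]
    · right
      refine ⟨?_, ?_⟩
      · obtain ⟨m, hm⟩ := hout i hi x hx
        refine ⟨m, ?_⟩
        simp only [Shear.toMove]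
        push_cast
        rcases hm with hm | hm
        · left; linarith
        · right; linarith
      · simp [hQ, Function.update_of_ne hi]

/-- The four shears realising `diag(r, 1/r)` in the coordinate plane `(p, q)`. -/
def diagShears (p q : Fin 3) (hpq : p ≠ q) (r : ℚ) : List Shear :=
  [⟨p, q, hpq, 1 / r - 1⟩, ⟨q, p, hpq.symm, 1⟩, ⟨p, q, hpq, r - 1⟩, ⟨q, p, hpq.symm, -(1 / r)⟩]

/-- The eight shears realising `diag(r 0, r 1, r 2)` when `r 0 * r 1 * r 2 = 1`. -/
def reshapeShears (r : Fin 3 → ℚ) : List Shear :=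
  diagShears 0 1 (by decide) (r 0) ++ diagShears 1 2 (by decide) (r 0 * r 1)

/-- The amplification factor of the reshaping chain: an explicit product of eight factors. -/
def reshapeAmp (r : Fin 3 → ℚ) : ℚ := shearAmp (reshapeShears r)

theorem reshapeAmp_eq (r : Fin 3 → ℚ) :
    reshapeAmp r = (1 + |1 / r 0 - 1|) * ((1 + |(1 : ℚ)|) * ((1 + |r 0 - 1|) * ((1 + |-(1 / r 0)|) *
      ((1 + |1 / (r 0 * r 1) - 1|) * ((1 + |(1 : ℚ)|) * ((1 + |r 0 * r 1 - 1|) *
        ((1 + |-(1 / (r 0 * r 1))|) * 1))))))) := by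
  simp [reshapeAmp, reshapeShears, diagShears, shearAmp]

theorem one_le_reshapeAmp (r : Fin 3 → ℚ) : 1 ≤ reshapeAmp r := one_le_shearAmp _

theorem shearComp_reshape (π r : Fin 3 → ℚ) (hr : ∀ m, 0 < r m) (hprod : r 0 * r 1 * r 2 = 1)
    (y : E3) :
    shearComp π (reshapeShears r) y = fun m => (π m : ℝ) + (r m : ℝ) * (y m - (π m : ℝ)) := by
  have h0 : (0 : ℝ) < r 0 := by exact_mod_cast hr 0
  have h1 : (0 : ℝ) < r 1 := by exact_mod_cast hr 1
  have h2 : (0 : ℝ) < r 2 := by exact_mod_cast hr 2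
  have hp : (r 0 : ℝ) * r 1 * r 2 = 1 := by exact_mod_cast hprod
  have h2' : (r 2 : ℝ) = 1 / ((r 0 : ℝ) * r 1) := by
    field_simp
    linarith
  ext m
  fin_cases m
  · simp [reshapeShears, diagShears, shearComp, Shear.map]
    field_simp
    ring
  · simp [reshapeShears, diagShears, shearComp, Shear.map]
    field_simp
    ring
  · simp [reshapeShears, diagShears, shearComp, Shear.map]
    rw [h2']
    field_simp
    ring

/-- **Reshaping.** The body `i₀` lies in the cube of half-width `t₀` about the rational centre `π`,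
all other bodies lie outside the cube of half-width `ρ + δ` about `π`, and
`reshapeAmp r * t₀ < ρ`. Then the body `i₀` can be rescaled about `π` by `diag(r)`, `∏ r = 1`. -/
theorem reach_reshape {n : ℕ} (O : Fin n → Set E3) (P : Fin n → E3 → E3) (i₀ : Fin n)
    (π r : Fin 3 → ℚ) (hr : ∀ m, 0 < r m) (hprod : r 0 * r 1 * r 2 = 1)
    (t₀ ρ δ : ℚ) (ht₀ : 0 ≤ t₀) (hδ : 0 < δ) (hρ : reshapeAmp r * t₀ < ρ)
    (hin : ∀ x ∈ O i₀, ∀ m, |P i₀ x m - (π m : ℝ)| ≤ t₀)
    (hout : ∀ i, i ≠ i₀ → ∀ x ∈ O i,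
      ∃ m, P i x m < (π m : ℝ) - ρ - δ ∨ (π m : ℝ) + ρ + δ < P i x m) :
    Reach O P (Function.update P i₀
      (fun x m => (π m : ℝ) + (r m : ℝ) * (P i₀ x m - (π m : ℝ)))) := by
  have hρ0 : 0 < ρ := by
    have h1 := one_le_reshapeAmp r
    have : 0 ≤ reshapeAmp r * t₀ := by positivity
    linarith
  have h := reach_shears O i₀ π ρ δ hρ0 hδ (reshapeShears r) P t₀ ht₀ hρ hin hout
  have e : (fun x => shearComp π (reshapeShears r) (P i₀ x)) =
      (fun x m => (π m : ℝ) + (r m : ℝ) * (P i₀ x m - (π m : ℝ))) := by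
    funext x
    exact shearComp_reshape π r hr hprod (P i₀ x)
  rw [e] at h
  exact h

end Crest.Agent.Helper9
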