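/-
helper9, S0170 team build, module PLAN (disassembly): pairwise separated rational boxes inside the
cube `[-ρ, ρ]^3` are translated one at a time to the parking centres `(3ρ i, 4ρ, 3ρ)`:
always the remaining box with the highest top face is lifted to height `3ρ`, slid along `x₀` to
`3ρ i` and then along `x₁` to `4ρ`.
-/
import Mathlib
import Crest.Prelude.Def_BoxFlow
import Crest.Agent.Helper9.BoxReshape

set_option autoImplicit false

namespace Crest.Agent.Helper9

open Crest.Agent.Helper11 Crest.AnalysisR.BoxFlow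

/-- An auxiliary axis different from `j`. -/
def auxAxis (j : Fin 3) : Fin 3 := if j = 0 then 1 else 0

theorem auxAxis_ne (j : Fin 3) : j ≠ auxAxis j := by
  fin_cases j <;> simp [auxAxis]

/-- The translation `Move` along `e_j` by `s` with cut-off box `(lo, hi)` and margin `δ`. -/
def transMove (j : Fin 3) (s : ℚ) (lo hi : Fin 3 → ℚ) (δ : ℚ) (hδ : 0 < δ)
    (hlohi : ∀ m, lo m < hi m) : Move where
  j := j
  l := auxAxis j
  hjl := auxAxis_ne j
  α := s
  κ := 0
  c := 0
  lo := lo
  hi := hi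
  δ := δ
  hlohi := hlohi
  hδ := hδ
  hkind := Or.inl rfl

theorem transMove_map (j : Fin 3) (s : ℚ) (lo hi : Fin 3 → ℚ) (δ : ℚ) (hδ : 0 < δ)
    (hlohi : ∀ m, lo m < hi m) (y : E3) :
    (transMove j s lo hi δ hδ hlohi).map y = y + (s : ℝ) • Pi.single j (1 : ℝ) := by
  simp [Move.map, transMove]

/-- **One translation step.** The body `i₀` and its translate lie in the open box `(lo, hi)`,
the other bodies lie outside the box enlarged by `δ`. -/
theorem reach_translate {n : ℕ} (O : Fin n → Set E3) (P : Fin n → E3 → E3) (i₀ : Fin n)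
    (j : Fin 3) (s : ℚ) (lo hi : Fin 3 → ℚ) (δ : ℚ) (hδ : 0 < δ) (hlohi : ∀ m, lo m < hi m)
    (hin : ∀ x ∈ O i₀, ∀ m, (lo m : ℝ) < P i₀ x m ∧ P i₀ x m < hi m)
    (hin' : ∀ x ∈ O i₀, (lo j : ℝ) < P i₀ x j + s ∧ P i₀ x j + s < hi j)
    (hout : ∀ i, i ≠ i₀ → ∀ x ∈ O i,
      ∃ m, P i x m < (lo m : ℝ) - δ ∨ (hi m : ℝ) + δ < P i x m) :
    Reach O P (Function.update P i₀ (fun x => P i₀ x + (s : ℝ) • Pi.single j (1 : ℝ))) := by
  refine Reach.step (transMove j s lo hi δ hδ hlohi) P _ _ ?_ (Reach.refl _)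
  intro i x hx
  by_cases hi : i = i₀
  · subst hi
    left
    refine ⟨hin x hx, ?_, ?_⟩
    · intro m
      rw [transMove_map]
      by_cases hm : m = j
      · subst hm
        simpa [transMove] using hin' x hx
      · simpa [transMove, Pi.single_eq_of_ne hm] using hin x hx m
    · rw [transMove_map]
      simp
  · right
    exact ⟨hout i hi x hx, by simp [Function.update_of_ne hi]⟩

/-- One translation step for a body known to lie in the closed rational box `[u, v]`. -/
theorem reach_translate_box {n : ℕ} (O : Fin n → Set E3) (P : Fin n → E3 → E3) (i₀ : Fin n)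
    (j : Fin 3) (s : ℚ) (u v lo hi : Fin 3 → ℚ) (δ : ℚ) (hδ : 0 < δ)
    (huv : ∀ m, u m ≤ v m) (hlo : ∀ m, lo m < u m) (hhi : ∀ m, v m < hi m)
    (hloj : lo j < u j + s) (hhij : v j + s < hi j)
    (hbody : ∀ x ∈ O i₀, ∀ m, (u m : ℝ) ≤ P i₀ x m ∧ P i₀ x m ≤ v m)
    (hout : ∀ i, i ≠ i₀ → ∀ x ∈ O i,
      ∃ m, P i x m < (lo m : ℝ) - δ ∨ (hi m : ℝ) + δ < P i x m) :
    Reach O P (Function.update P i₀ (fun x => P i₀ x + (s : ℝ) • Pi.single j (1 : ℝ))) := by
  refine reach_translate O P i₀ j s lo hi δ hδ (fun m => ?_) ?_ ?_ hout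
  · have := hlo m; have := huv m; have := hhi m; linarith
  · intro x hx m
    have h1 : (lo m : ℝ) < u m := by exact_mod_cast hlo m
    have h2 : (v m : ℝ) < hi m := by exact_mod_cast hhi m
    have := hbody x hx m
    constructor <;> linarith [this.1, this.2]
  · intro x hx
    have h1 : (lo j : ℝ) < u j + s := by exact_mod_cast hloj
    have h2 : (v j : ℝ) + s < hi j := by exact_mod_cast hhij
    have := hbody x hx j
    constructor <;> linarith [this.1, this.2]

/-- The parking centre of box number `i` at scale `ρ`. -/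
def park (ρ : ℚ) (i : ℕ) : Fin 3 → ℚ := ![3 * ρ * i, 4 * ρ, 3 * ρ]

/-- The state of the disassembly: bodies in `R` are still in place, the others are parked. -/
def disState {n : ℕ} (c : Fin n → Fin 3 → ℚ) (ρ : ℚ) (R : Finset (Fin n)) : Fin n → E3 → E3 :=
  fun i x => if i ∈ R then x else x + fun m => ((park ρ i m : ℚ) : ℝ) - (c i m : ℝ)

theorem disState_mem {n : ℕ} (c : Fin n → Fin 3 → ℚ) (ρ : ℚ) (R : Finset (Fin n)) (i : Fin n)
    (hi : i ∈ R) (x : E3) : disState c ρ R i x = x := by
  simp [disState, hi]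

theorem disState_not_mem {n : ℕ} (c : Fin n → Fin 3 → ℚ) (ρ : ℚ) (R : Finset (Fin n)) (i : Fin n)
    (hi : i ∉ R) (x : E3) (m : Fin 3) :
    disState c ρ R i x m = x m + ((park ρ i m : ℚ) : ℝ) - (c i m : ℝ) := by
  simp [disState, hi]
  ring

/-- One box (the remaining one with the highest top face) is moved to its parking position. -/
theorem reach_disStep {n : ℕ} (c w : Fin n → Fin 3 → ℚ) (hw : ∀ i m, 0 < w i m) (g : ℚ)
    (hg : 0 < g) (hgap : ∀ i i', i ≠ i' → ∃ m, w i m + w i' m + g ≤ |c i m - c i' m|)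
    (ρ : ℚ) (hρ : ∀ i m, |c i m| + w i m ≤ ρ) (O : Fin n → Set E3)
    (hO : ∀ i, O i ⊆ box (c i) (w i)) (R : Finset (Fin n)) (i₀ : Fin n) (hi₀ : i₀ ∈ R)
    (hmax : ∀ i ∈ R, c i 2 + w i 2 ≤ c i₀ 2 + w i₀ 2) :
    Reach O (disState c ρ R) (disState c ρ (R.erase i₀)) := by
  have hρ0 : 0 < ρ := by
    have := hρ i₀ 0; have := hw i₀ 0; have := abs_nonneg (c i₀ 0); linarith
  have hcQ : ∀ i m, -ρ ≤ c i m - w i m ∧ c i m + w i m ≤ ρ ∧ w i m ≤ ρ := by
    intro i m
    have h := hρ i m
    have h1 := neg_abs_le (c i m)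
    have h2 := le_abs_self (c i m)
    have h3 := abs_nonneg (c i m)
    have h4 := hw i m
    exact ⟨by linarith, by linarith, by linarith⟩
  have hcR : ∀ i m, -(ρ : ℝ) ≤ (c i m : ℝ) - w i m ∧ (c i m : ℝ) + w i m ≤ ρ ∧
      (w i m : ℝ) ≤ ρ ∧ (0 : ℝ) < w i m := by
    intro i m
    obtain ⟨h1, h2, h3⟩ := hcQ i m
    exact ⟨by exact_mod_cast h1, by exact_mod_cast h2, by exact_mod_cast h3,
      by exact_mod_cast hw i m⟩
  have hbox : ∀ i, ∀ x ∈ O i, ∀ m, (c i m : ℝ) - w i m ≤ x m ∧ x m ≤ (c i m : ℝ) + w i m := by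
    intro i x hx m
    have := hO i hx m
    rw [abs_le] at this
    constructor <;> linarith [this.1, this.2]
  have hρR : (0 : ℝ) < ρ := by exact_mod_cast hρ0
  set η : ℚ := min g ρ / 3 with hη
  have hmin : 0 < min g ρ := lt_min hg hρ0
  have hη0 : 0 < η := by positivity
  have hηg : 3 * η ≤ g := by
    have := min_le_left g ρ
    rw [hη]; linarith
  have hηρ : 3 * η ≤ ρ := by
    have := min_le_right g ρ
    rw [hη]; linarith
  have hηR : (0 : ℝ) < η := by exact_mod_cast hη0
  have hηgR : 3 * (η : ℝ) ≤ g := by exact_mod_cast hηg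
  have hηρR : 3 * (η : ℝ) ≤ ρ := by exact_mod_cast hηρ
  set P₀ := disState c ρ R with hP₀
  have hself : ∀ x, P₀ i₀ x = x := fun x => disState_mem c ρ R i₀ hi₀ x
  have hR : ∀ i ∈ R, ∀ x, P₀ i x = x := fun i hi x => disState_mem c ρ R i hi x
  have hN : ∀ i, i ∉ R → ∀ x m, P₀ i x m = x m + ((park ρ i m : ℚ) : ℝ) - (c i m : ℝ) :=
    fun i hi x m => disState_not_mem c ρ R i hi x m
  -- step 1: lift to height `3ρ`
  set P₁ := Function.update P₀ i₀
    (fun x => P₀ i₀ x + ((3 * ρ - c i₀ 2 : ℚ) : ℝ) • Pi.single 2 (1 : ℝ)) with hP₁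
  have s1 : Reach O P₀ P₁ := by
    refine reach_translate_box O P₀ i₀ 2 (3 * ρ - c i₀ 2) (fun m => c i₀ m - w i₀ m)
      (fun m => c i₀ m + w i₀ m) (fun m => c i₀ m - w i₀ m - η)
      (fun m => (if m = 2 then 3 * ρ else c i₀ m) + w i₀ m + η) η hη0 ?_ ?_ ?_ ?_ ?_ ?_ ?_
    · intro m; have := hw i₀ m; linarith
    · intro m; linarith
    · intro m
      have := (hcQ i₀ 2).2.1
      have := hw i₀ 2
      by_cases hm : m = 2
      · subst hm; simp; linarith
      · simp [hm]; linarith
    · have := (hcQ i₀ 2).2.1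
      have := hw i₀ 2
      linarith
    · simp
      linarith
    · intro x hx m
      rw [hself]
      simpa using hbox i₀ x hx m
    · intro i hi x hx
      by_cases hiR : i ∈ R
      · rw [hR i hiR]
        obtain ⟨m, hm⟩ := hgap i i₀ hi
        have hb := hbox i x hx m
        rcases le_abs'.mp hm with h | h
        · -- box `i` on the minus side in coordinate `m`
          refine ⟨m, Or.inl ?_⟩
          have h' : (c i m : ℝ) - c i₀ m ≤ -((w i m : ℝ) + w i₀ m + g) := by exact_mod_cast h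
          push_cast
          linarith [hb.2]
        · -- box `i` on the plus side in coordinate `m`
          have h' : (w i m : ℝ) + w i₀ m + g ≤ (c i m : ℝ) - c i₀ m := by exact_mod_cast h
          have hm2 : m ≠ 2 := by
            rintro rfl
            have := hmax i hiR
            have := hw i 2
            linarith
          refine ⟨m, Or.inr ?_⟩
          simp only [if_neg hm2]
          push_cast
          linarith [hb.1]
      · refine ⟨1, Or.inr ?_⟩
        rw [hN i hiR]
        have hb := hbox i x hx 1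
        have h1 := hcR i 1
        have h2 := hcR i₀ 1
        simp [park]
        linarith [hb.1]
  -- common margin for the two slides
  set θ : ℚ := ρ / 4 with hθ
  have hθ0 : 0 < θ := by positivity
  have hθR : (θ : ℝ) = ρ / 4 := by rw [hθ]; push_cast; ring
  have hi0 : (0 : ℚ) ≤ 3 * ρ * ((i₀ : ℕ) : ℚ) := by positivity
  have hP₁self : ∀ x m, P₁ i₀ x m = if m = 2 then x 2 + 3 * (ρ : ℝ) - c i₀ 2 else x m := by
    intro x m
    simp only [hP₁, Function.update_self, hself, Pi.add_apply, Pi.smul_apply, smul_eq_mul]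
    by_cases hm : m = 2
    · subst hm; simp; ring
    · simp [hm]
  have hP₁ne : ∀ i, i ≠ i₀ → P₁ i = P₀ i := fun i hi => by
    simp [hP₁, Function.update_of_ne hi]
  -- step 2: slide along `x₀` to `3ρ i₀`
  set P₂ := Function.update P₁ i₀
    (fun x => P₁ i₀ x + ((3 * ρ * ((i₀ : ℕ) : ℚ) - c i₀ 0 : ℚ) : ℝ) • Pi.single 0 (1 : ℝ)) with hP₂
  have s2 : Reach O P₁ P₂ := by
    refine reach_translate_box O P₁ i₀ 0 (3 * ρ * ((i₀ : ℕ) : ℚ) - c i₀ 0)
      (fun m => (if m = 2 then 3 * ρ else c i₀ m) - w i₀ m)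
      (fun m => (if m = 2 then 3 * ρ else c i₀ m) + w i₀ m)
      (fun m => if m = 0 then -ρ - θ else (if m = 2 then 3 * ρ else c i₀ m) - w i₀ m - θ)
      (fun m => if m = 0 then 3 * ρ * ((i₀ : ℕ) : ℚ) + ρ + θ
        else (if m = 2 then 3 * ρ else c i₀ m) + w i₀ m + θ) θ hθ0 ?_ ?_ ?_ ?_ ?_ ?_ ?_
    · intro m; have := hw i₀ m; linarith
    · intro m
      have := (hcQ i₀ 0).1
      by_cases hm : m = 0
      · subst hm; simp; linarith
      · simp [hm]; linarith
    · intro m
      have := (hcQ i₀ 0).2.1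
      by_cases hm : m = 0
      · subst hm; simp; linarith
      · simp [hm]; linarith
    · have := (hcQ i₀ 0).2.2
      simp
      linarith
    · have := (hcQ i₀ 0).2.2
      simp
      linarith
    · intro x hx m
      rw [hP₁self]
      have hb := hbox i₀ x hx m
      by_cases hm : m = 2
      · subst hm
        simp only [if_true]
        push_cast
        constructor <;> linarith [hb.1, hb.2]
      · simp only [if_neg hm]
        push_cast
        exact hb
    · intro i hi x hx
      rw [hP₁ne i hi]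
      by_cases hiR : i ∈ R
      · refine ⟨2, Or.inl ?_⟩
        rw [hR i hiR]
        have hb := hbox i x hx 2
        have h1 := hcR i 2
        have h2 := hcR i₀ 2
        simp
        linarith [hb.2]
      · refine ⟨1, Or.inr ?_⟩
        rw [hN i hiR]
        have hb := hbox i x hx 1
        have h1 := hcR i 1
        have h2 := hcR i₀ 1
        simp [park]
        linarith [hb.1]
  have hP₂self : ∀ x m, P₂ i₀ x m = if m = 2 then x 2 + 3 * (ρ : ℝ) - c i₀ 2
      else if m = 0 then x 0 + 3 * (ρ : ℝ) * ((i₀ : ℕ) : ℝ) - c i₀ 0 else x m := by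
    intro x m
    simp only [hP₂, Function.update_self, hP₁self, Pi.add_apply, Pi.smul_apply, smul_eq_mul]
    fin_cases m <;> simp <;> ring
  have hP₂ne : ∀ i, i ≠ i₀ → P₂ i = P₀ i := fun i hi => by
    simp [hP₂, Function.update_of_ne hi, hP₁ne i hi]
  -- step 3: slide along `x₁` to `4ρ`
  set P₃ := Function.update P₂ i₀
    (fun x => P₂ i₀ x + ((4 * ρ - c i₀ 1 : ℚ) : ℝ) • Pi.single 1 (1 : ℝ)) with hP₃
  have s3 : Reach O P₂ P₃ := by
    refine reach_translate_box O P₂ i₀ 1 (4 * ρ - c i₀ 1)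
      (fun m => (if m = 2 then 3 * ρ else if m = 0 then 3 * ρ * ((i₀ : ℕ) : ℚ) else c i₀ m)
        - w i₀ m)
      (fun m => (if m = 2 then 3 * ρ else if m = 0 then 3 * ρ * ((i₀ : ℕ) : ℚ) else c i₀ m)
        + w i₀ m)
      (fun m => if m = 1 then -ρ - θ
        else (if m = 2 then 3 * ρ else if m = 0 then 3 * ρ * ((i₀ : ℕ) : ℚ) else c i₀ m)
          - w i₀ m - θ)
      (fun m => if m = 1 then 5 * ρ + θ
        else (if m = 2 then 3 * ρ else if m = 0 then 3 * ρ * ((i₀ : ℕ) : ℚ) else c i₀ m)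
          + w i₀ m + θ) θ hθ0 ?_ ?_ ?_ ?_ ?_ ?_ ?_
    · intro m; have := hw i₀ m; linarith
    · intro m
      have := (hcQ i₀ 1).1
      by_cases hm : m = 1
      · subst hm; simp; linarith
      · simp [hm]; linarith
    · intro m
      have := (hcQ i₀ 1).2.1
      by_cases hm : m = 1
      · subst hm; simp; linarith
      · simp [hm]; linarith
    · have := (hcQ i₀ 1).2.2
      simp
      linarith
    · have := (hcQ i₀ 1).2.2
      simp
      linarith
    · intro x hx m
      rw [hP₂self]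
      have hb0 := hbox i₀ x hx 0
      have hb1 := hbox i₀ x hx 1
      have hb2 := hbox i₀ x hx 2
      fin_cases m
      · simp
        constructor <;> linarith [hb0.1, hb0.2]
      · simpa using hb1
      · simp
        constructor <;> linarith [hb2.1, hb2.2]
    · intro i hi x hx
      rw [hP₂ne i hi]
      by_cases hiR : i ∈ R
      · refine ⟨2, Or.inl ?_⟩
        rw [hR i hiR]
        have hb := hbox i x hx 2
        have h1 := hcR i 2
        have h2 := hcR i₀ 2
        simp
        linarith [hb.2]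
      · have hb := hbox i x hx 0
        have h1 := hcR i 0
        have h2 := hcR i₀ 0
        have hne : (i : ℕ) ≠ (i₀ : ℕ) := fun h => hi (Fin.ext h)
        rcases Nat.lt_or_gt_of_ne hne with hlt | hgt
        · refine ⟨0, Or.inl ?_⟩
          rw [hN i hiR]
          have hc : ((i : ℕ) : ℝ) + 1 ≤ ((i₀ : ℕ) : ℝ) := by exact_mod_cast hlt
          have : 3 * (ρ : ℝ) * ((i : ℕ) : ℝ) + 3 * ρ ≤ 3 * ρ * ((i₀ : ℕ) : ℝ) := by nlinarith
          simp [park]
          linarith [hb.2]
        · refine ⟨0, Or.inr ?_⟩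
          rw [hN i hiR]
          have hc : ((i₀ : ℕ) : ℝ) + 1 ≤ ((i : ℕ) : ℝ) := by exact_mod_cast hgt
          have : 3 * (ρ : ℝ) * ((i₀ : ℕ) : ℝ) + 3 * ρ ≤ 3 * ρ * ((i : ℕ) : ℝ) := by nlinarith
          simp [park]
          linarith [hb.1]
  have hfin : P₃ = disState c ρ (R.erase i₀) := by
    funext i x
    by_cases hi : i = i₀
    · subst hi
      ext m
      rw [disState_not_mem c ρ (R.erase i) i (by simp)]
      simp only [hP₃, Function.update_self, hP₂self, Pi.add_apply, Pi.smul_apply, smul_eq_mul]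
      fin_cases m <;> simp [park] <;> ring
    · have h1 : P₃ i = P₀ i := by simp [hP₃, Function.update_of_ne hi, hP₂ne i hi]
      rw [h1, hP₀]
      simp [disState, hi]
  rw [← hfin]
  exact reach_trans s1 (reach_trans s2 s3)

/-- Disassembly, inductive form: from any state to the fully parked state. -/
theorem reach_disState {n : ℕ} (c w : Fin n → Fin 3 → ℚ) (hw : ∀ i m, 0 < w i m) (g : ℚ)
    (hg : 0 < g) (hgap : ∀ i i', i ≠ i' → ∃ m, w i m + w i' m + g ≤ |c i m - c i' m|)
    (ρ : ℚ) (hρ : ∀ i m, |c i m| + w i m ≤ ρ) (O : Fin n → Set E3)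
    (hO : ∀ i, O i ⊆ box (c i) (w i)) :
    ∀ (k : ℕ) (R : Finset (Fin n)), R.card = k →
      Reach O (disState c ρ R) (disState c ρ ∅) := by
  intro k
  induction k with
  | zero =>
    intro R hR
    rw [Finset.card_eq_zero] at hR
    subst hR
    exact Reach.refl _
  | succ k ih =>
    intro R hR
    have hne : R.Nonempty := Finset.card_pos.mp (by omega)
    obtain ⟨i₀, hi₀, hmax⟩ := R.exists_max_image (fun i => c i 2 + w i 2) hne
    have h1 := reach_disStep c w hw g hg hgap ρ hρ O hO R i₀ hi₀ hmax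
    have h2 := ih (R.erase i₀) (by rw [Finset.card_erase_of_mem hi₀, hR]; rfl)
    exact reach_trans h1 h2

/-- **Disassembly.** Bodies inside pairwise separated rational boxes contained in `[-ρ, ρ]^3`
are translated to the parking centres `park ρ i = (3ρ i, 4ρ, 3ρ)`. -/
theorem reach_disassemble {n : ℕ} (c w : Fin n → Fin 3 → ℚ) (hw : ∀ i m, 0 < w i m) (g : ℚ)
    (hg : 0 < g) (hgap : ∀ i i', i ≠ i' → ∃ m, w i m + w i' m + g ≤ |c i m - c i' m|)
    (ρ : ℚ) (hρ : ∀ i m, |c i m| + w i m ≤ ρ) (O : Fin n → Set E3)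
    (hO : ∀ i, O i ⊆ box (c i) (w i)) :
    Reach O (fun _ x => x)
      (fun (i : Fin n) x => x + fun m => ((park ρ (i : ℕ) m : ℚ) : ℝ) - (c i m : ℝ)) := by
  have h := reach_disState c w hw g hg hgap ρ hρ O hO _ Finset.univ rfl
  have e1 : disState c ρ Finset.univ = fun _ x => x := by
    funext i x; simp [disState]
  have e2 : disState c ρ ∅ =
      fun (i : Fin n) x => x + fun m => ((park ρ (i : ℕ) m : ℚ) : ℝ) - (c i m : ℝ) := by
    funext i x; simp [disState]
  rw [e1, e2] at h
  exact h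

end Crest.Agent.Helper9
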