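/-
helper9, S0170 team build, module PLAN (explode): pairwise disjoint rational boxes are taken
apart to parking positions and every parked body is rescaled to the canonical shape
(half-widths `(w₀ w₁ w₂, 1, 1)`), for every large enough scale `ρ`.
-/
import Mathlib
import Crest.Prelude.Def_BoxFlow
import Crest.Agent.Helper28.BoxSep
import Crest.Agent.Helper9.BoxDisassemble

set_option autoImplicit false

namespace Crest.Agent.Helper9

open Crest.Agent.Helper11 Crest.AnalysisR.BoxFlow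

/-- The canonical diagonal rescaling of determinant one: half-widths `w ↦ (w₀ w₁ w₂, 1, 1)`. -/
def canon (w : Fin 3 → ℚ) : Fin 3 → ℚ := ![w 1 * w 2, 1 / w 1, 1 / w 2]

theorem canon_pos (w : Fin 3 → ℚ) (hw : ∀ m, 0 < w m) (m : Fin 3) : 0 < canon w m := by
  have h1 := hw 1
  have h2 := hw 2
  fin_cases m <;> simp [canon] <;> positivity

theorem canon_prod (w : Fin 3 → ℚ) (hw : ∀ m, 0 < w m) :
    canon w 0 * canon w 1 * canon w 2 = 1 := by
  have h1 := (hw 1).ne'
  have h2 := (hw 2).ne'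
  simp [canon]
  field_simp

/-- The state of the reshaping phase: bodies in `S` have the canonical shape, the others are
parked with their original shape. -/
def expState {n : ℕ} (c w : Fin n → Fin 3 → ℚ) (ρ : ℚ) (S : Finset (Fin n)) :
    Fin n → E3 → E3 :=
  fun i x => if i ∈ S then
      (fun m => ((park ρ (i : ℕ) m : ℚ) : ℝ) + ((canon (w i) m : ℚ) : ℝ) * (x m - (c i m : ℝ)))
    else x + fun m => ((park ρ (i : ℕ) m : ℚ) : ℝ) - (c i m : ℝ)

/-- One parked body is rescaled to the canonical shape. -/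
theorem reach_expStep {n : ℕ} (c w : Fin n → Fin 3 → ℚ) (hw : ∀ i m, 0 < w i m) (ρ : ℚ)
    (hρ1 : ∀ i m, w i m ≤ ρ) (hρ2 : ∀ i, w i 0 * w i 1 * w i 2 ≤ ρ)
    (hρ3 : ∀ i, reshapeAmp (canon (w i)) * (w i 0 + w i 1 + w i 2) < ρ)
    (O : Fin n → Set E3) (hO : ∀ i, O i ⊆ box (c i) (w i)) (S : Finset (Fin n)) (i₀ : Fin n)
    (hi₀ : i₀ ∉ S) :
    Reach O (expState c w ρ S) (expState c w ρ (insert i₀ S)) := by
  have hbox : ∀ i, ∀ x ∈ O i, ∀ m, |x m - (c i m : ℝ)| ≤ w i m := fun i x hx m => hO i hx m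
  have hwR : ∀ i m, (0 : ℝ) < w i m := fun i m => by exact_mod_cast hw i m
  have hρ0 : 0 < ρ := lt_of_lt_of_le (hw i₀ 0) (hρ1 i₀ 0)
  have hρR : (0 : ℝ) < ρ := by exact_mod_cast hρ0
  have h := reach_reshape O (expState c w ρ S) i₀ (park ρ (i₀ : ℕ)) (canon (w i₀))
    (canon_pos (w i₀) (hw i₀)) (canon_prod (w i₀) (hw i₀)) (w i₀ 0 + w i₀ 1 + w i₀ 2) ρ (ρ / 2)
    (by have := hw i₀ 0; have := hw i₀ 1; have := hw i₀ 2; linarith) (by positivity) (hρ3 i₀)
    ?_ ?_
  · have e : Function.update (expState c w ρ S) i₀ (fun x m =>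
        ((park ρ (i₀ : ℕ) m : ℚ) : ℝ) + ((canon (w i₀) m : ℚ) : ℝ) *
          (expState c w ρ S i₀ x m - ((park ρ (i₀ : ℕ) m : ℚ) : ℝ))) =
        expState c w ρ (insert i₀ S) := by
      funext i x
      by_cases hi : i = i₀
      · subst hi
        simp only [Function.update_self, expState, if_neg hi₀, Finset.mem_insert_self, if_true]
        funext m
        simp only [Pi.add_apply]
        ring
      · simp [expState, Finset.mem_insert, hi]
    rw [e] at h
    exact h
  · intro x hx m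
    simp only [expState, if_neg hi₀, Pi.add_apply]
    have hb := hbox i₀ x hx m
    have h0 := hwR i₀ 0
    have h1 := hwR i₀ 1
    have h2 := hwR i₀ 2
    have hle : (w i₀ m : ℝ) ≤ ((w i₀ 0 + w i₀ 1 + w i₀ 2 : ℚ) : ℝ) := by
      push_cast
      fin_cases m <;> simp <;> linarith
    calc |x m + (((park ρ (i₀ : ℕ) m : ℚ) : ℝ) - (c i₀ m : ℝ)) - ((park ρ (i₀ : ℕ) m : ℚ) : ℝ)|
        = |x m - (c i₀ m : ℝ)| := by ring_nf
      _ ≤ w i₀ m := hb
      _ ≤ _ := hle
  · intro i hi x hx
    -- the other bodies are within `ρ` of their own parking centre in coordinate `0`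
    have hb := hbox i x hx 0
    rw [abs_le] at hb
    have hclose : |expState c w ρ S i x 0 - 3 * (ρ : ℝ) * ((i : ℕ) : ℝ)| ≤ ρ := by
      by_cases hiS : i ∈ S
      · simp only [expState, if_pos hiS]
        have h0 := hwR i 0
        have h1 := hwR i 1
        have h2 := hwR i 2
        have hV : (w i 0 : ℝ) * w i 1 * w i 2 ≤ ρ := by exact_mod_cast hρ2 i
        have hp : (0 : ℝ) < (w i 1 : ℝ) * w i 2 := by positivity
        simp [park, canon]
        rw [abs_of_pos h1, abs_of_pos h2]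
        have hb' : |x 0 - (c i 0 : ℝ)| ≤ w i 0 := abs_le.mpr hb
        calc (w i 1 : ℝ) * w i 2 * |x 0 - (c i 0 : ℝ)|
            ≤ (w i 1 : ℝ) * w i 2 * w i 0 := by gcongr
          _ = (w i 0 : ℝ) * w i 1 * w i 2 := by ring
          _ ≤ ρ := hV
      · simp only [expState, if_neg hiS, Pi.add_apply]
        have h0 : (w i 0 : ℝ) ≤ ρ := by exact_mod_cast hρ1 i 0
        simp [park]
        rw [abs_le]
        constructor <;> linarith [hb.1, hb.2]
    rw [abs_le] at hclose
    have h0 := hwR i₀ 0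
    have hne : (i : ℕ) ≠ (i₀ : ℕ) := fun h => hi (Fin.ext h)
    refine ⟨0, ?_⟩
    have hpark : ((park ρ (i₀ : ℕ) 0 : ℚ) : ℝ) = 3 * (ρ : ℝ) * ((i₀ : ℕ) : ℝ) := by
      simp [park]
    rw [hpark]
    push_cast
    rcases Nat.lt_or_gt_of_ne hne with hlt | hgt
    · left
      have hc : ((i : ℕ) : ℝ) + 1 ≤ ((i₀ : ℕ) : ℝ) := by exact_mod_cast hlt
      have : 3 * (ρ : ℝ) * ((i : ℕ) : ℝ) + 3 * ρ ≤ 3 * ρ * ((i₀ : ℕ) : ℝ) := by nlinarith
      linarith [hclose.2]
    · right
      have hc : ((i₀ : ℕ) : ℝ) + 1 ≤ ((i : ℕ) : ℝ) := by exact_mod_cast hgt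
      have : 3 * (ρ : ℝ) * ((i₀ : ℕ) : ℝ) + 3 * ρ ≤ 3 * ρ * ((i : ℕ) : ℝ) := by nlinarith
      linarith [hclose.1]

/-- Reshaping phase: from the parked state, any set of bodies can be brought to canonical
shape. -/
theorem reach_expState {n : ℕ} (c w : Fin n → Fin 3 → ℚ) (hw : ∀ i m, 0 < w i m) (ρ : ℚ)
    (hρ1 : ∀ i m, w i m ≤ ρ) (hρ2 : ∀ i, w i 0 * w i 1 * w i 2 ≤ ρ)
    (hρ3 : ∀ i, reshapeAmp (canon (w i)) * (w i 0 + w i 1 + w i 2) < ρ)
    (O : Fin n → Set E3) (hO : ∀ i, O i ⊆ box (c i) (w i)) (S : Finset (Fin n)) :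
    Reach O (expState c w ρ ∅) (expState c w ρ S) := by
  induction S using Finset.induction_on with
  | empty => exact Reach.refl _
  | insert i₀ S hi₀ ih =>
    exact reach_trans ih (reach_expStep c w hw ρ hρ1 hρ2 hρ3 O hO S i₀ hi₀)

/-- **Explode.** Pairwise disjoint rational boxes: for every large enough scale `ρ`, the bodies
inside the boxes are carried to the parking centres `park ρ i` and rescaled there to the
canonical shape. The final configuration is the literal function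
`x ↦ park ρ i + canon (w i) * (x - c i)`. -/
theorem reach_explode {n : ℕ} (c w : Fin n → Fin 3 → ℚ) (hw : ∀ i m, 0 < w i m)
    (hd : Pairwise fun i i' => Disjoint (box (c i) (w i)) (box (c i') (w i'))) :
    ∃ ρ₀ : ℚ, ∀ ρ : ℚ, ρ₀ ≤ ρ → ∀ O : Fin n → Set E3, (∀ i, O i ⊆ box (c i) (w i)) →
      Reach O (fun _ x => x)
        (fun (i : Fin n) x m => ((park ρ (i : ℕ) m : ℚ) : ℝ) +
          ((canon (w i) m : ℚ) : ℝ) * (x m - (c i m : ℝ))) := by
  obtain ⟨g, hg, hgap⟩ := Crest.Agent.Helper28.exists_gap c w hw hd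
  set A : Fin n → ℚ := fun i => ∑ m, (|c i m| + w i m) with hA
  set B : Fin n → ℚ := fun i => w i 0 * w i 1 * w i 2 with hB
  set C : Fin n → ℚ := fun i => reshapeAmp (canon (w i)) * (w i 0 + w i 1 + w i 2) with hC
  have hterm : ∀ i m, 0 ≤ |c i m| + w i m := fun i m => by
    have := abs_nonneg (c i m); have := hw i m; linarith
  have hA0 : ∀ i, 0 ≤ A i := fun i => Finset.sum_nonneg fun m _ => hterm i m
  have hB0 : ∀ i, 0 ≤ B i := fun i => by
    have := hw i 0; have := hw i 1; have := hw i 2; positivity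
  have hC0 : ∀ i, 0 ≤ C i := fun i => by
    have := hw i 0; have := hw i 1; have := hw i 2
    have := one_le_reshapeAmp (canon (w i))
    have h1 : 0 < reshapeAmp (canon (w i)) := by linarith
    positivity
  refine ⟨∑ i, (A i + B i + (C i + 1)), fun ρ hρ O hO => ?_⟩
  have hFi : ∀ i, A i + B i + (C i + 1) ≤ ρ := fun i =>
    le_trans (Finset.single_le_sum (f := fun i => A i + B i + (C i + 1))
      (fun j _ => by have := hA0 j; have := hB0 j; have := hC0 j; linarith)
      (Finset.mem_univ i)) hρ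
  have hρ1' : ∀ i m, |c i m| + w i m ≤ ρ := by
    intro i m
    have h1 : |c i m| + w i m ≤ A i :=
      Finset.single_le_sum (f := fun m => |c i m| + w i m) (fun j _ => hterm i j)
        (Finset.mem_univ m)
    have := hFi i; have := hB0 i; have := hC0 i
    linarith
  have hρ1 : ∀ i m, w i m ≤ ρ := fun i m => by
    have := hρ1' i m; have := abs_nonneg (c i m); linarith
  have hρ2 : ∀ i, w i 0 * w i 1 * w i 2 ≤ ρ := fun i => by
    have h := hFi i; have := hA0 i; have := hC0 i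
    have e : B i = w i 0 * w i 1 * w i 2 := rfl
    linarith
  have hρ3 : ∀ i, reshapeAmp (canon (w i)) * (w i 0 + w i 1 + w i 2) < ρ := fun i => by
    have h := hFi i; have := hA0 i; have := hB0 i
    have e : C i = reshapeAmp (canon (w i)) * (w i 0 + w i 1 + w i 2) := rfl
    linarith
  have h1 := reach_disassemble c w hw g hg hgap ρ hρ1' O hO
  have h2 := reach_expState c w hw ρ hρ1 hρ2 hρ3 O hO Finset.univ
  have e1 : expState c w ρ ∅ =
      fun (i : Fin n) x => x + fun m => ((park ρ (i : ℕ) m : ℚ) : ℝ) - (c i m : ℝ) := by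
    funext i x; simp [expState]
  have e2 : expState c w ρ Finset.univ = fun (i : Fin n) x m =>
      ((park ρ (i : ℕ) m : ℚ) : ℝ) + ((canon (w i) m : ℚ) : ℝ) * (x m - (c i m : ℝ)) := by
    funext i x; simp [expState]
  rw [e1, e2] at h2
  exact reach_trans h1 h2

end Crest.Agent.Helper9
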