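/-
helper9, S0170 team build, module PLAN (final): the motion plan for S0170.
Explode the (slightly enlarged) source boxes and the (correspondingly enlarged) target boxes to
the same canonical parked configuration; the plan is the first explosion followed by the reverse
of the second one, reparametrised by the target affine maps.
-/
import Mathlib
import Crest.Prelude.Def_BoxFlow
import Crest.Agent.Helper9.BoxExplode

set_option autoImplicit false

namespace Crest.Agent.Helper9

open Crest.Agent.Helper11 Crest.AnalysisR.BoxFlow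

/-- Reparametrisation of the tracked points. -/
theorem reach_reparam {n : ℕ} {O O' : Fin n → Set E3} {P Q : Fin n → E3 → E3}
    (φ : Fin n → E3 → E3) (hφ : ∀ i, Set.MapsTo (φ i) (O' i) (O i)) (h : Reach O P Q) :
    Reach O' (fun i x => P i (φ i x)) (fun i x => Q i (φ i x)) := by
  induction h with
  | refl P => exact Reach.refl _
  | step M P Q R h _ ih =>
    exact Reach.step M _ (fun i x => Q i (φ i x)) _ (fun i x hx => h i (φ i x) (hφ i hx)) ih

/-- The reverse of a move. -/
def moveRev (M : Move) : Move where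
  j := M.j
  l := M.l
  hjl := M.hjl
  α := -M.α
  κ := -M.κ
  c := M.c
  lo := M.lo
  hi := M.hi
  δ := M.δ
  hlohi := M.hlohi
  hδ := M.hδ
  hkind := by
    rcases M.hkind with h | h
    · left; simp [h]
    · right; simp [h]

theorem moveRev_map_map (M : Move) (y : E3) : (moveRev M).map (M.map y) = y := by
  have hne : M.l ≠ M.j := fun h => M.hjl h.symm
  ext m
  simp only [Move.map, moveRev, Pi.add_apply, Pi.smul_apply, smul_eq_mul,
    Pi.single_eq_of_ne hne, mul_zero, add_zero]
  push_cast
  ring

/-- Plans can be run backwards. -/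
theorem reach_symm {n : ℕ} {O : Fin n → Set E3} {P Q : Fin n → E3 → E3} (h : Reach O P Q) :
    Reach O Q P := by
  induction h with
  | refl P => exact Reach.refl _
  | step M P Q R h _ ih =>
    refine reach_trans ih (Reach.step (moveRev M) Q P P ?_ (Reach.refl _))
    intro i x hx
    rcases h i x hx with ⟨h1, h2, h3⟩ | ⟨h1, h2⟩
    · left
      refine ⟨?_, ?_, ?_⟩
      · rw [h3]; exact h2
      · rw [h3, moveRev_map_map]; exact h1
      · rw [h3, moveRev_map_map]
    · right
      exact ⟨by rw [h2]; exact h1, h2.symm⟩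

/-- The open box about `a` with half-widths `w`. -/
def obox (a w : Fin 3 → ℚ) : Set E3 := {x | ∀ m, |x m - (a m : ℝ)| < (w m : ℝ)}

theorem isOpen_obox (a w : Fin 3 → ℚ) : IsOpen (obox a w) := by
  have : obox a w = ⋂ m, {x : E3 | |x m - (a m : ℝ)| < (w m : ℝ)} := by
    ext x; simp [obox]
  rw [this]
  refine isOpen_iInter_of_finite fun m => ?_
  exact isOpen_lt (by fun_prop) continuous_const

theorem obox_subset_box (a w : Fin 3 → ℚ) : obox a w ⊆ box a w :=
  fun _ hx m => le_of_lt (hx m)

/-- **The motion plan of S0170.** -/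
theorem exists_plan (n : ℕ) (a b h k : Fin n → Fin 3 → ℚ)
    (hh : ∀ i j, 0 < h i j) (hk : ∀ i j, 0 < k i j)
    (ha : Pairwise fun i i' => Disjoint (box (a i) (h i)) (box (a i') (h i')))
    (hb : Pairwise fun i i' => Disjoint (box (b i) (k i)) (box (b i') (k i')))
    (hvol : ∀ i, ∏ j : Fin 3, k i j / h i j = 1) :
    ∃ O : Fin n → Set E3, (∀ i, IsOpen (O i)) ∧ (∀ i, box (a i) (h i) ⊆ O i) ∧
      Reach O (fun _ x => x)
        (fun i x j => (b i j : ℝ) + ((k i j / h i j : ℚ) : ℝ) * (x j - (a i j : ℝ))) := by
  obtain ⟨ε, hε, ha', hb'⟩ := Crest.Agent.Helper28.exists_enlarge n a b h k hh hk ha hb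
  set h' : Fin n → Fin 3 → ℚ := fun i j => h i j + ε with hh'def
  set k' : Fin n → Fin 3 → ℚ := fun i j => k i j * (h i j + ε) / h i j with hk'def
  have hh' : ∀ i j, 0 < h' i j := fun i j => by have := hh i j; simp only [hh'def]; linarith
  have hk' : ∀ i j, 0 < k' i j := fun i j => by
    have := hh i j; have := hk i j
    simp only [hk'def]; positivity
  obtain ⟨ρ₁, H1⟩ := reach_explode a h' hh' ha'
  obtain ⟨ρ₂, H2⟩ := reach_explode b k' hk' hb'
  set ρ : ℚ := max ρ₁ ρ₂ with hρ
  refine ⟨fun i => obox (a i) (h' i), fun i => isOpen_obox _ _, ?_, ?_⟩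
  · intro i x hx m
    have h1 : |x m - (a i m : ℝ)| ≤ (h i m : ℝ) := hx m
    have h2 : (h i m : ℝ) < ((h' i m : ℚ) : ℝ) := by
      simp only [hh'def]; push_cast
      have : (0 : ℝ) < ε := by exact_mod_cast hε
      linarith
    exact lt_of_le_of_lt h1 h2
  · have S1 := H1 ρ (le_max_left _ _) (fun i => obox (a i) (h' i))
      (fun i => obox_subset_box _ _)
    have S2 := H2 ρ (le_max_right _ _) (fun i => obox (b i) (k' i))
      (fun i => obox_subset_box _ _)
    set φ : Fin n → E3 → E3 :=
      fun i x j => (b i j : ℝ) + ((k i j / h i j : ℚ) : ℝ) * (x j - (a i j : ℝ)) with hφdef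
    have hφ : ∀ i, Set.MapsTo (φ i) (obox (a i) (h' i)) (obox (b i) (k' i)) := by
      intro i x hx m
      have hhm : (0 : ℝ) < h i m := by exact_mod_cast hh i m
      have hkm : (0 : ℝ) < k i m := by exact_mod_cast hk i m
      have hx' : |x m - (a i m : ℝ)| < (h i m : ℝ) + ε := by
        have := hx m
        simp only [hh'def] at this
        push_cast at this
        exact this
      have hr : (0 : ℝ) < (k i m : ℝ) / h i m := by positivity
      simp only [hφdef, hk'def]
      push_cast
      rw [add_sub_cancel_left, abs_mul, abs_of_pos hr]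
      calc (k i m : ℝ) / h i m * |x m - (a i m : ℝ)|
          < (k i m : ℝ) / h i m * ((h i m : ℝ) + ε) := by gcongr
        _ = (k i m : ℝ) * ((h i m : ℝ) + ε) / h i m := by ring
    have S2' := reach_reparam φ hφ S2
    -- the two canonical configurations agree through the target affine maps
    have hC : ∀ i m, canon (k' i) m * (k i m / h i m) = canon (h' i) m := by
      intro i m
      have h0 := (hh i 0).ne'; have h1 := (hh i 1).ne'; have h2 := (hh i 2).ne'
      have k0 := (hk i 0).ne'; have k1 := (hk i 1).ne'; have k2 := (hk i 2).ne'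
      have e0 := (hh' i 0).ne'; have e1 := (hh' i 1).ne'; have e2 := (hh' i 2).ne'
      have hv := hvol i
      rw [Fin.prod_univ_three] at hv
      have hv' : k i 0 * k i 1 * k i 2 = h i 0 * h i 1 * h i 2 := by
        field_simp at hv
        linarith
      simp only [hh'def] at e0 e1 e2
      fin_cases m
      · show k' i 1 * k' i 2 * (k i 0 / h i 0) = h' i 1 * h' i 2
        simp only [hk'def, hh'def]
        calc k i 1 * (h i 1 + ε) / h i 1 * (k i 2 * (h i 2 + ε) / h i 2) * (k i 0 / h i 0)
            = (h i 1 + ε) * (h i 2 + ε) *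
              (k i 0 / h i 0 * (k i 1 / h i 1) * (k i 2 / h i 2)) := by ring
          _ = (h i 1 + ε) * (h i 2 + ε) := by rw [hv]; ring
      · show 1 / k' i 1 * (k i 1 / h i 1) = 1 / h' i 1
        simp only [hk'def, hh'def]
        field_simp
      · show 1 / k' i 2 * (k i 2 / h i 2) = 1 / h' i 2
        simp only [hk'def, hh'def]
        field_simp
    have e : (fun (i : Fin n) x => (fun m => ((park ρ (i : ℕ) m : ℚ) : ℝ) +
        ((canon (k' i) m : ℚ) : ℝ) * (φ i x m - (b i m : ℝ)))) =
        (fun (i : Fin n) x => (fun m => ((park ρ (i : ℕ) m : ℚ) : ℝ) +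
        ((canon (h' i) m : ℚ) : ℝ) * (x m - (a i m : ℝ)))) := by
      funext i x m
      have hCr : ((canon (k' i) m * (k i m / h i m) : ℚ) : ℝ) = ((canon (h' i) m : ℚ) : ℝ) := by
        rw [hC i m]
      push_cast at hCr
      simp only [hφdef]
      rw [add_sub_cancel_left, ← hCr]
      push_cast
      ring
    rw [e] at S2'
    exact reach_trans S1 (reach_symm S2')

end Crest.Agent.Helper9
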